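import Vale.Agent.P361.Model

/-!
Bloch's law in a magnetic field: magnetization in a field (infinite and finite volume) and the
predictions of ideal spin-wave theory for the magnetization and the pressure.
-/

namespace Vale.Agent.P361.H285

open Matrix Vale.Agent.P361.Model

noncomputable section

/-- Magnetization in the field `h`: the right derivative of `p_β` at `h`. -/
def magField (n : ℕ) (β h : ℝ) : ℝ := derivWithin (pressure n β) (Set.Ioi h) h

/-- `(4πS)^{-3/2} Li_{3/2}(e^{-t})`, `Li_{3/2}(e^{-t}) = ∑_{j ≥ 1} e^{-jt} / j^{3/2}`. -/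
def spinWaveDeficit (S t : ℝ) : ℝ :=
  (4 * Real.pi * S) ^ (-(3 / 2) : ℝ) *
    ∑' j : ℕ, Real.exp (-(((j : ℝ) + 1) * t)) / ((j : ℝ) + 1) ^ (3 / 2 : ℝ)

/-- `(4πS)^{-3/2} Li_{5/2}(e^{-t})`, `Li_{5/2}(e^{-t}) = ∑_{j ≥ 1} e^{-jt} / j^{5/2}`. -/
def spinWavePressure (S t : ℝ) : ℝ :=
  (4 * Real.pi * S) ^ (-(3 / 2) : ℝ) *
    ∑' j : ℕ, Real.exp (-(((j : ℝ) + 1) * t)) / ((j : ℝ) + 1) ^ (5 / 2 : ℝ)

/-- Gibbs factor `exp(-β (H_N - h M_N))` on the free cube `Λ_N`. -/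
def gibbsOp (n N : ℕ) (β h : ℝ) : Op n (box N) :=
  NormedSpace.exp (-(β : ℂ) •
    (hamiltonian n (fun x y : box N => ∑ i, |x.1 i - y.1 i| = 1) -
      (h : ℂ) • magnetization n (box N)))

/-- Magnetization per site `⟨M_N⟩ / |Λ_N|` of the Gibbs state of the free cube `Λ_N`. -/
def finMag (n N : ℕ) (β h : ℝ) : ℝ :=
  (Matrix.trace (gibbsOp n N β h * magnetization n (box N))).re /
    (Matrix.trace (gibbsOp n N β h)).re / (box N).card

end

end Vale.Agent.P361.H285
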