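import Vale.Agent.P361.H285.Upper

/-!
The laws of ideal spin-wave theory with relative error, uniformly in the field.
-/

namespace Vale.Agent.P361.H285

open Filter Topology Matrix Vale.Agent.P361.B

/-- Lower bound of the reduced pressure. -/
theorem gRed_low {n : ℕ} (hn : 1 ≤ n) : ∃ K : ℝ, 1 ≤ K ∧ ∀ β : ℝ, K ≤ β → ∀ t : ℝ, 0 ≤ t →
    (1 - K / β) * FS ((n : ℝ) / 2) t ≤ Real.sqrt β ^ 3 * gRed n β (t / β) := by
  obtain ⟨K, hK1, hK⟩ := gRed_lower hn
  refine ⟨K, hK1, fun β hβ t ht => ?_⟩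
  have hβ0 : 0 < β := by linarith
  refine le_of_tendsto' ((FR_tendsto ((n : ℝ) / 2) ht).const_mul (1 - K / β)) fun R => ?_
  have h := hK β hβ (t / β) (by positivity) R
  rwa [mul_div_cancel₀ t hβ0.ne'] at h

/-- Lower bound of the deficit of the magnetization. -/
theorem mag_low {n : ℕ} (hn : 1 ≤ n) : ∃ K : ℝ, 1 ≤ K ∧ ∀ β : ℝ, K ≤ β → ∀ t : ℝ, 0 ≤ t →
    (1 - K / β) * fS ((n : ℝ) / 2) t ≤
      Real.sqrt β ^ 3 * ((n : ℝ) / 2 - H.magAt n β (t / β)) := by
  obtain ⟨K, hK1, hK⟩ := mag_lower hn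
  refine ⟨K, hK1, fun β hβ t ht => ?_⟩
  have hβ0 : 0 < β := by linarith
  refine le_of_tendsto' ((fR_tendsto ((n : ℝ) / 2) ht).const_mul (1 - K / β)) fun R => ?_
  have h := hK β hβ (t / β) (by positivity) R
  rwa [mul_div_cancel₀ t hβ0.ne'] at h

/-- Bloch's law in zero field, in the present notation. -/
theorem bloch_zero {n : ℕ} (hn : 1 ≤ n) :
    Tendsto (fun β : ℝ => Real.sqrt β ^ 3 * ((n : ℝ) / 2 - H.magAt n β 0)) atTop
      (𝓝 (aS ((n : ℝ) / 2))) := by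
  have h := (LRO.S3S.bloch_all n hn).2.2.2
  have e : (riemannZeta (3 / 2)).re /
        (8 * Real.pi ^ (3 / 2 : ℝ) * ((n : ℝ) / 2) ^ (3 / 2 : ℝ)) = aS ((n : ℝ) / 2) := by
    rw [LRO.S3S.aS_eq_BCS n]
    rfl
  rw [e] at h
  refine h.congr' ?_
  filter_upwards [eventually_ge_atTop 0] with β hβ
  rw [H.rpow_three_half hβ]
  rfl

/-- Upper bound of the reduced pressure with relative error, all fields. -/
theorem gRed_up {n : ℕ} (hn : 1 ≤ n) {ε : ℝ} (hε : 0 < ε) : ∀ᶠ β : ℝ in atTop, ∀ t : ℝ, 0 ≤ t →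
    Real.sqrt β ^ 3 * gRed n β (t / β) ≤ (1 + ε) * FS ((n : ℝ) / 2) t := by
  obtain ⟨C, β₀, hU⟩ := gRed_upper hn (κ := 1 / 25) (by norm_num) (by norm_num)
  have hc := cS_pos hn
  have hB := (bloch_zero hn).eventually (ge_mem_nhds (lt_add_one _))
  have hG := (G0_tendsto n).eventually (ge_mem_nhds (show cS n < (1 + ε) * cS n by nlinarith))
  have hr : Tendsto (fun β : ℝ => (|C| + (aS ((n : ℝ) / 2) + 1)) * β ^ (-(3 / 100) : ℝ)) atTop
      (𝓝 0) := by
    simpa using (tendsto_rpow_neg_atTop (show (0 : ℝ) < 3 / 100 by norm_num)).const_mul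
      (|C| + (aS ((n : ℝ) / 2) + 1))
  filter_upwards [hB, hG, strong_G hn, hr.eventually (ge_mem_nhds (show 0 < ε * cS n by positivity)),
    eventually_ge_atTop β₀, eventually_ge_atTop 1] with β hB hG hS hr hβ₀ hβ1 t ht
  have hβ0 : 0 < β := by linarith
  have pp : ∀ a : ℝ, 0 < β ^ a := fun a => Real.rpow_pos_of_pos hβ0 a
  have hexp : Real.exp (-(Real.log β / 100)) = β ^ (-(1 / 100) : ℝ) := by
    rw [Real.rpow_def_of_pos hβ0]
    congr 1
    ring
  have hsb : 0 < Real.sqrt β ^ 3 := by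
    have : 0 < Real.sqrt β := Real.sqrt_pos.2 hβ0
    positivity
  rcases le_or_gt (Real.log β / 100) t with h | h
  · -- strong fields
    obtain ⟨L, hL, hS⟩ := hS
    have hLR : (0 : ℝ) < L := by exact_mod_cast hL
    have h1 := gRed_le (n := n) (β := β) (h := t / β) hβ0 (by positivity) hL
    rw [mul_div_cancel₀ t hβ0.ne'] at h1
    have h2 : Real.log (Zt n (B.cube L) β t) ≤ Zt n (B.cube L) β t - 1 :=
      Real.log_le_sub_one_of_pos (Zt_pos_eig _ _ _ _)
    have h3 := zt_sub_one n (B.cube L) (b := β) h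
    have h4 : Real.sqrt β ^ 3 * gRed n β (t / β) ≤
        Real.exp (-(t - Real.log β / 100)) * (Real.sqrt β ^ 3 / (L : ℝ) ^ 3 *
          (Zt n (B.cube L) β (Real.log β / 100) - 1)) := by
      calc Real.sqrt β ^ 3 * gRed n β (t / β)
          ≤ Real.sqrt β ^ 3 * (Real.log (Zt n (B.cube L) β t) / (L : ℝ) ^ 3) :=
            mul_le_mul_of_nonneg_left h1 hsb.le
        _ = Real.sqrt β ^ 3 / (L : ℝ) ^ 3 * Real.log (Zt n (B.cube L) β t) := by ring
        _ ≤ Real.sqrt β ^ 3 / (L : ℝ) ^ 3 * (Real.exp (-(t - Real.log β / 100)) *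
            (Zt n (B.cube L) β (Real.log β / 100) - 1)) :=
            mul_le_mul_of_nonneg_left (h2.trans h3) (by positivity)
        _ = _ := by ring
    refine h4.trans ?_
    have h5 := hS.trans (mul_le_mul_of_nonneg_right hG (pp (-(1 / 100) : ℝ)).le)
    have h6 := mul_le_mul_of_nonneg_left h5 (Real.exp_pos (-(t - Real.log β / 100))).le
    refine h6.trans ?_
    have h7 : Real.exp (-(t - Real.log β / 100)) * ((1 + ε) * cS n * β ^ (-(1 / 100) : ℝ)) =
        (1 + ε) * (cS n * Real.exp (-t)) := by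
      rw [← hexp]
      have : Real.exp (-(t - Real.log β / 100)) * Real.exp (-(Real.log β / 100)) =
          Real.exp (-t) := by rw [← Real.exp_add]; congr 1; ring
      linear_combination ((1 + ε) * cS n) * this
    rw [h7]
    exact mul_le_mul_of_nonneg_left (FS_ge n ht) (by linarith)
  · -- weak and moderate fields
    have h1 : cS n * β ^ (-(1 / 100) : ℝ) ≤ FS ((n : ℝ) / 2) t := by
      rw [← hexp]
      refine le_trans ?_ (FS_ge n ht)
      exact mul_le_mul_of_nonneg_left (Real.exp_le_exp.2 (by linarith)) hc.le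
    have h2 : (|C| + (aS ((n : ℝ) / 2) + 1)) * β ^ (-(1 / 25) : ℝ) ≤ ε * FS ((n : ℝ) / 2) t := by
      have g1 : β ^ (-(1 / 25) : ℝ) = β ^ (-(3 / 100) : ℝ) * β ^ (-(1 / 100) : ℝ) := by
        rw [← Real.rpow_add hβ0]; norm_num
      rw [g1, ← mul_assoc]
      have g2 := mul_le_mul_of_nonneg_right hr (pp (-(1 / 100) : ℝ)).le
      have g3 := mul_le_mul_of_nonneg_left h1 hε.le
      linarith
    have haS := aS_nonneg ((n : ℝ) / 2)
    have hp := pp (-(1 / 25) : ℝ)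
    rcases le_or_gt (β ^ (-(1 / 25) : ℝ)) t with h3 | h3
    · have h4 := hU β hβ₀ t h3
      have h5 : C * β ^ (-(1 / 25) : ℝ) ≤ (|C| + (aS ((n : ℝ) / 2) + 1)) * β ^ (-(1 / 25) : ℝ) :=
        mul_le_mul_of_nonneg_right (by linarith [le_abs_self C]) hp.le
      linarith
    · have h4 := hU β hβ₀ _ le_rfl
      have h5 := gRed_small n hβ0 ht h3.le
      have h6 := mul_le_mul_of_nonneg_left h5 hsb.le
      have h7 := FS_anti ((n : ℝ) / 2) ht h3.le
      have h8 : Real.sqrt β ^ 3 * ((β ^ (-(1 / 25) : ℝ) - t) * ((n : ℝ) / 2 - H.magAt n β 0)) ≤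
          β ^ (-(1 / 25) : ℝ) * (aS ((n : ℝ) / 2) + 1) := by
        have g1 : Real.sqrt β ^ 3 * ((β ^ (-(1 / 25) : ℝ) - t) * ((n : ℝ) / 2 - H.magAt n β 0)) =
            (β ^ (-(1 / 25) : ℝ) - t) * (Real.sqrt β ^ 3 * ((n : ℝ) / 2 - H.magAt n β 0)) := by
          ring
        rw [g1]
        have g2 : 0 ≤ (n : ℝ) / 2 - H.magAt n β 0 := by
          have := magAt_le hn hβ0 le_rfl
          linarith
        exact mul_le_mul (by linarith) hB (by positivity) hp.le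
      have h9 : C * β ^ (-(1 / 25) : ℝ) ≤ |C| * β ^ (-(1 / 25) : ℝ) :=
        mul_le_mul_of_nonneg_right (le_abs_self C) hp.le
      rw [mul_add] at h6
      linarith

/-- Upper bound of the deficit of the magnetization with relative error, all fields. -/
theorem mag_up {n : ℕ} (hn : 1 ≤ n) {ε : ℝ} (hε : 0 < ε) : ∀ᶠ β : ℝ in atTop, ∀ t : ℝ, 0 ≤ t →
    Real.sqrt β ^ 3 * ((n : ℝ) / 2 - H.magAt n β (t / β)) ≤ (1 + ε) * fS ((n : ℝ) / 2) t := by
  obtain ⟨K, hK1, hK⟩ := gRed_low hn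
  have hc := cS_pos hn
  obtain ⟨δ, hδ0, hδ1, hδ2⟩ : ∃ δ : ℝ, 0 < δ ∧ δ ≤ 1 / 2 ∧ 15 * δ ≤ ε :=
    ⟨min (ε / 15) (1 / 2), by positivity, min_le_right _ _, by
      have := min_le_left (ε / 15) (1 / 2)
      linarith⟩
  have hf1 : 0 < fS ((n : ℝ) / 2) 1 :=
    lt_of_lt_of_le (mul_pos hc (Real.exp_pos _)) (fS_ge n zero_le_one)
  set η : ℝ := ε * fS ((n : ℝ) / 2) 1 with hη
  have hη0 : 0 < η := mul_pos hε hf1
  have hU := gRed_up hn (ε := ε * δ / 12) (by positivity)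
  have hM := bloch_uniform hn (κ := 1 / 42) (by norm_num) hη0
  have hB := (bloch_zero hn).eventually (ge_mem_nhds (show aS ((n : ℝ) / 2) <
    aS ((n : ℝ) / 2) + η / 2 by linarith))
  have hK2 : Tendsto (fun β : ℝ => K / β) atTop (𝓝 0) := tendsto_const_nhds.div_atTop tendsto_id
  have hF : ∀ᶠ β : ℝ in atTop, fS ((n : ℝ) / 2) 0 - η / 2 ≤
      fS ((n : ℝ) / 2) (β ^ (-(1 / 42) : ℝ)) := by
    have h1 : Tendsto (fun β : ℝ => β ^ (-(1 / 42) : ℝ)) atTop (𝓝[≥] 0) := by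
      refine tendsto_nhdsWithin_iff.2 ⟨tendsto_rpow_neg_atTop (by norm_num), ?_⟩
      filter_upwards [eventually_gt_atTop 0] with β hβ
      exact Set.mem_Ici.2 (by positivity)
    exact ((fS_tendsto_zero ((n : ℝ) / 2)).comp h1).eventually (le_mem_nhds (by linarith))
  filter_upwards [hU, hM, hB, hK2.eventually (ge_mem_nhds (show 0 < ε * δ / 12 by positivity)), hF,
    eventually_ge_atTop K] with β hU hM hB hK2 hF hβK t ht
  have hβ1 : 1 ≤ β := by linarith
  have hβ0 : 0 < β := by linarith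
  have hsb : 0 < Real.sqrt β ^ 3 := by
    have : 0 < Real.sqrt β := Real.sqrt_pos.2 hβ0
    positivity
  have hf0 := fS_nonneg ((n : ℝ) / 2) t
  rcases le_or_gt 1 t with h | h
  · -- slopes
    have htδ : 0 ≤ t - δ := by linarith
    have sl := mag_le_slope (n := n) hβ0 (h₁ := (t - δ) / β) (h₀ := t / β)
      (div_lt_div_of_pos_right (by linarith) hβ0)
    have e5 : β * (t / β - (t - δ) / β) = δ := by field_simp; ring
    rw [e5, le_div_iff₀ hδ0] at sl
    have s1 := mul_le_mul_of_nonneg_left sl hsb.le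
    have s2 := hU (t - δ) htδ
    have s3 := hK β hβK t ht
    have s4 := FS_sub_le ((n : ℝ) / 2) htδ hδ0.le
    rw [sub_add_cancel] at s4
    have s5 := fS_shift n h hδ0.le hδ1
    have s6 := FS_le_fS ((n : ℝ) / 2) htδ
    have s7 := FS_le_fS ((n : ℝ) / 2) ht
    have s8 : fS ((n : ℝ) / 2) (t - δ) ≤ 4 * fS ((n : ℝ) / 2) t :=
      s5.trans (mul_le_mul_of_nonneg_right (by linarith) hf0)
    have s9 : Real.sqrt β ^ 3 * ((n : ℝ) / 2 - H.magAt n β (t / β)) * δ ≤
        ((1 + ε) * fS ((n : ℝ) / 2) t) * δ := by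
      have g1 : ε * δ / 12 * FS ((n : ℝ) / 2) (t - δ) ≤
          ε * δ / 12 * (4 * fS ((n : ℝ) / 2) t) :=
        mul_le_mul_of_nonneg_left (s6.trans s8) (by positivity)
      have g2 : K / β * FS ((n : ℝ) / 2) t ≤ ε * δ / 12 * fS ((n : ℝ) / 2) t :=
        mul_le_mul hK2 s7 (FS_nonneg _ _) (by positivity)
      have g3 : δ * fS ((n : ℝ) / 2) (t - δ) ≤ δ * ((1 + 5 * δ) * fS ((n : ℝ) / 2) t) :=
        mul_le_mul_of_nonneg_left s5 hδ0.le
      have g4 : 15 * δ * (δ * fS ((n : ℝ) / 2) t) ≤ ε * (δ * fS ((n : ℝ) / 2) t) :=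
        mul_le_mul_of_nonneg_right hδ2 (by positivity)
      have g5 : 0 ≤ ε * δ * fS ((n : ℝ) / 2) t := by positivity
      rw [mul_sub] at s1
      linarith
    exact le_of_mul_le_mul_right s9 hδ0
  · -- weak and moderate fields
    have hft : fS ((n : ℝ) / 2) 1 ≤ fS ((n : ℝ) / 2) t := fS_anti _ ht h.le
    have hηt : η ≤ ε * fS ((n : ℝ) / 2) t := mul_le_mul_of_nonneg_left hft hε.le
    rcases le_or_gt (β ^ (-(1 / 42) : ℝ)) t with h2 | h2
    · have h3 := hM (t / β) (by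
        rw [le_div_iff₀ hβ0]
        refine le_trans (le_of_eq ?_) h2
        nth_rewrite 2 [← Real.rpow_one β]
        rw [← Real.rpow_add hβ0]
        norm_num)
      rw [mul_div_cancel₀ t hβ0.ne', H.rpow_three_half hβ0.le] at h3
      have h4 := (abs_le.1 h3).2
      linarith
    · have h3 := magAt_mono n hβ0 (show (0 : ℝ) ≤ t / β by positivity)
      have h4 : Real.sqrt β ^ 3 * ((n : ℝ) / 2 - H.magAt n β (t / β)) ≤
          Real.sqrt β ^ 3 * ((n : ℝ) / 2 - H.magAt n β 0) :=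
        mul_le_mul_of_nonneg_left (by linarith) hsb.le
      have h5 := fS_anti ((n : ℝ) / 2) ht h2.le
      rw [fS_zero] at hF
      linarith

end Vale.Agent.P361.H285
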