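import Vale.Agent.P361.H285.Laws

/-!
Assembly: symmetry of the pressure, finite-volume Gibbs states, and the final statements.
-/

namespace Vale.Agent.P361.H285

open Filter Topology Matrix Vale.Agent.P361.B

/-! ### Spin flip -/

theorem Zt_neg (n : ℕ) (Λ : Finset Site) (b t : ℝ) :
    Zt n Λ b (-t) = Real.exp (t * (n * Λ.card : ℕ)) * Zt n Λ b t := by
  rw [← su2_flip b (-t), Su2.Zt_eq_sum, Finset.mul_sum]
  refine Finset.sum_congr rfl fun i hi => ?_
  rw [Finset.mem_range] at hi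
  rw [← mul_assoc, ← Real.exp_add]
  congr 2
  rw [Nat.cast_sub (by omega)]
  ring

theorem pressure_even (n : ℕ) {β : ℝ} (hβ : 0 < β) (h : ℝ) :
    pressure n β (-h) = pressure n β h := by
  have h1 := gRed_tendsto (n := n) hβ (-h)
  have h2 := (gRed_tendsto (n := n) hβ h).const_add (β * h * n)
  have h3 : Tendsto (fun N : ℕ => Real.log (Zt n (P361.box N) β (β * -h)) /
      ((P361.box N).card : ℝ)) atTop (𝓝 (β * h * n + gRed n β h)) := by
    refine h2.congr fun N => ?_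
    have hpos : (0 : ℝ) < (P361.box N).card := by exact_mod_cast (box_nonempty N).card_pos
    rw [mul_neg, Zt_neg, Real.log_mul (Real.exp_pos _).ne' (Zt_pos_eig _ _ _ _).ne', Real.log_exp]
    push_cast
    field_simp
  have h4 := tendsto_nhds_unique h1 h3
  unfold gRed at h4
  have h5 : β * (pressure n β (-h) - pressure n β h) = 0 := by linear_combination h4
  have h6 := (mul_eq_zero.1 h5).resolve_left hβ.ne'
  linarith

theorem spontMag_nonneg (n : ℕ) {β : ℝ} (hβ : 0 < β) : 0 ≤ H.magAt n β 0 := by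
  have hder : HasDerivWithinAt (pressure n β) (H.magAt n β 0) (Set.Ioi 0) 0 :=
    pressure_hasRightDeriv n hβ 0
  rw [hasDerivWithinAt_iff_tendsto_slope' (by simp)] at hder
  refine ge_of_tendsto hder ?_
  filter_upwards [self_mem_nhdsWithin] with h hh
  have hh' : (0 : ℝ) < h := hh
  rw [slope_def_field, sub_zero]
  refine div_nonneg ?_ hh'.le
  have hc := pressure_convex n hβ
  have h1 := hc.2 (Set.mem_univ h) (Set.mem_univ (-h)) (show (0 : ℝ) ≤ 1 / 2 by norm_num)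
    (show (0 : ℝ) ≤ 1 / 2 by norm_num) (by norm_num)
  rw [pressure_even n hβ] at h1
  have h2 : (1 / 2 : ℝ) • h + (1 / 2 : ℝ) • -h = 0 := by simp
  rw [h2] at h1
  simp only [smul_eq_mul] at h1
  linarith

theorem leftDeriv (n : ℕ) {β : ℝ} (hβ : 0 < β) :
    HasDerivWithinAt (pressure n β) (-H.magAt n β 0) (Set.Iio 0) 0 := by
  have h1 : HasDerivWithinAt (pressure n β) (H.magAt n β 0) (Set.Ioi 0) (-0) := by
    rw [neg_zero]
    exact pressure_hasRightDeriv n hβ 0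
  have h2 : HasDerivWithinAt (fun x : ℝ => -x) (-1) (Set.Iio 0) 0 :=
    (hasDerivAt_neg 0).hasDerivWithinAt
  have h3 := h1.comp 0 h2 (fun x hx => by
    have : x < 0 := hx
    show 0 < -x
    linarith)
  have h4 : (pressure n β ∘ fun x : ℝ => -x) = pressure n β := by
    funext x
    exact pressure_even n hβ x
  rw [h4] at h3
  refine h3.congr_deriv ?_
  ring

/-! ### Finite-volume Gibbs states -/

theorem finMag_law {n : ℕ} (hn : 1 ≤ n) {ε : ℝ} (hε : 0 < ε) : ∀ᶠ β : ℝ in atTop,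
    ∀ h : ℝ, 0 < h → ∀ᶠ N : ℕ in atTop,
      |Real.sqrt β ^ 3 * ((n : ℝ) / 2 - gibbsMag n (P361.box N) β h / (P361.box N).card) -
        fS ((n : ℝ) / 2) (β * h)| ≤ ε * fS ((n : ℝ) / 2) (β * h) := by
  obtain ⟨e, he0, he1, heε⟩ : ∃ e : ℝ, 0 < e ∧ e ≤ 1 ∧ e ≤ ε :=
    ⟨min ε 1, by positivity, min_le_right _ _, min_le_left _ _⟩
  obtain ⟨K, hK1, hK⟩ := mag_low hn
  have hc := cS_pos hn
  have hK2 : Tendsto (fun β : ℝ => K / β) atTop (𝓝 0) := tendsto_const_nhds.div_atTop tendsto_id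
  filter_upwards [mag_up hn (ε := e / 4) (by positivity), eventually_ge_atTop K,
    hK2.eventually (ge_mem_nhds (show 0 < e / 4 by positivity))] with β hU hβK hK2 h hh
  have hβ0 : 0 < β := by linarith
  have hsb : 0 < Real.sqrt β ^ 3 := by
    have : 0 < Real.sqrt β := Real.sqrt_pos.2 hβ0
    positivity
  set t : ℝ := β * h with ht
  have ht0 : 0 < t := by positivity
  set f : ℝ := fS ((n : ℝ) / 2) t with hf
  have hf0 : 0 < f := lt_of_lt_of_le (mul_pos hc (Real.exp_pos _)) (fS_ge n ht0.le)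
  -- the window
  obtain ⟨δ, hδ0, hδt, hδf⟩ : ∃ δ : ℝ, 0 < δ ∧ δ < t ∧
      fS ((n : ℝ) / 2) 0 - fS ((n : ℝ) / 2) δ ≤ e / 8 * f := by
    have h1 : ∀ᶠ x : ℝ in 𝓝[>] 0, fS ((n : ℝ) / 2) 0 - e / 8 * f ≤ fS ((n : ℝ) / 2) x :=
      ((fS_tendsto_zero ((n : ℝ) / 2)).mono_left
        (nhdsWithin_mono _ Set.Ioi_subset_Ici_self)).eventually
        (le_mem_nhds (by
          have : 0 < e / 8 * f := by positivity
          linarith))
    obtain ⟨x, hx1, hx2⟩ := (h1.and (Ioo_mem_nhdsGT ht0)).exists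
    exact ⟨x, hx2.1, hx2.2, by linarith⟩
  have htδ : 0 ≤ t - δ := by linarith
  have w1 := fS_sub_le ((n : ℝ) / 2) htδ hδ0.le
  rw [sub_add_cancel] at w1
  have w2 := fS_sub_le ((n : ℝ) / 2) ht0.le hδ0.le
  have hth : t / β = h := by rw [ht]; field_simp
  set h₁ : ℝ := (t - δ) / β with hh₁
  set h₂ : ℝ := (t + δ) / β with hh₂
  have l1 : h₁ < h := by rw [hh₁, div_lt_iff₀ hβ0]; linarith
  have l2 : h < h₂ := by rw [hh₂, lt_div_iff₀ hβ0]; linarith
  have U1 := hU (t - δ) htδ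
  have L2 := hK β hβK (t + δ) (by linarith)
  rw [← hh₁] at U1
  rw [← hh₂] at L2
  -- slopes of the limit
  have s1 : H.magAt n β h₁ ≤ (pressure n β h - pressure n β h₁) / (h - h₁) :=
    rightDeriv_le_slope' n hβ0 l1
  have s2 : (pressure n β h₂ - pressure n β h) / (h₂ - h) ≤ H.magAt n β h₂ := by
    have hcv := pressure_convex n hβ0
    have g1 := hcv.slope_le_leftDeriv_of_mem_interior (x := h) (y := h₂) (Set.mem_univ _)
      (by simp) l2
    have g2 := hcv.leftDeriv_le_rightDeriv_of_mem_interior (x := h₂) (by simp)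
    rw [← slope_def_field]
    exact g1.trans g2
  have p0 := pressure_tendsto n hβ0 h
  have p1 := pressure_tendsto n hβ0 h₁
  have p2 := pressure_tendsto n hβ0 h₂
  have q1 := (p0.sub p1).div_const (h - h₁)
  have q2 := (p2.sub p0).div_const (h₂ - h)
  obtain ⟨θ, hθ⟩ : ∃ θ : ℝ, θ = e / 8 * f / Real.sqrt β ^ 3 := ⟨_, rfl⟩
  have hθ0 : 0 < θ := by rw [hθ]; positivity
  have hθ2 : Real.sqrt β ^ 3 * θ = e / 8 * f := by rw [hθ]; field_simp
  filter_upwards [q1.eventually (le_mem_nhds (sub_lt_self _ hθ0)),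
    q2.eventually (ge_mem_nhds (lt_add_of_pos_right _ hθ0))] with N n1 n2
  have m1 := finPressure_support n (box_nonempty N) hβ0 h h₁
  have m2 := finPressure_support n (box_nonempty N) hβ0 h h₂
  set m : ℝ := gibbsMag n (P361.box N) β h / (P361.box N).card with hm
  have m3 : (finPressure n (P361.box N) β h - finPressure n (P361.box N) β h₁) / (h - h₁) ≤ m := by
    rw [div_le_iff₀ (by linarith)]; linarith
  have m4 : m ≤ (finPressure n (P361.box N) β h₂ - finPressure n (P361.box N) β h) / (h₂ - h) := by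
    rw [le_div_iff₀ (by linarith)]; linarith
  have m5 : H.magAt n β h₁ - θ ≤ m := by linarith
  have m6 : m ≤ H.magAt n β h₂ + θ := by linarith
  have r1 := mul_le_mul_of_nonneg_left m5 hsb.le
  have r2 := mul_le_mul_of_nonneg_left m6 hsb.le
  have z1 : (1 + e / 4) * fS ((n : ℝ) / 2) (t - δ) ≤ (1 + e / 4) * ((1 + e / 8) * f) :=
    mul_le_mul_of_nonneg_left (by linarith) (by linarith)
  have z2 : (1 - e / 4) * ((1 - e / 8) * f) ≤ (1 - K / β) * fS ((n : ℝ) / 2) (t + δ) := by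
    refine mul_le_mul (by linarith) (by linarith) (mul_nonneg (by linarith) hf0.le) (by linarith)
  have z3 : 0 ≤ e * f := by positivity
  have z4 : e * (e * f) ≤ 1 * (e * f) := mul_le_mul_of_nonneg_right he1 z3
  have z5 : e * f ≤ ε * f := mul_le_mul_of_nonneg_right heε hf0.le
  have z6 : (1 + e / 4) * ((1 + e / 8) * f) = f + 3 / 8 * (e * f) + 1 / 32 * (e * (e * f)) := by
    ring
  have z7 : (1 - e / 4) * ((1 - e / 8) * f) = f - 3 / 8 * (e * f) + 1 / 32 * (e * (e * f)) := by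
    ring
  have z8 : 0 ≤ e * (e * f) := by positivity
  rw [mul_sub, hθ2] at r1
  rw [mul_add, hθ2] at r2
  rw [mul_sub] at U1 L2 ⊢
  rw [abs_le]
  constructor
  · linarith only [r2, L2, z2, z7, z8, z5, z3]
  · linarith only [r1, U1, z1, z6, z4, z5, z3]

/-! ### Final forms -/

theorem cS_eq (n : ℕ) : (4 * Real.pi * ((n : ℝ) / 2)) ^ (-(3 / 2) : ℝ) =
    (Real.sqrt (4 * Real.pi * ((n : ℝ) / 2)) ^ 3)⁻¹ := by
  have hpi := Real.pi_pos
  rw [Real.rpow_neg (by positivity), H.rpow_three_half (by positivity)]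

theorem deficit_eq (n : ℕ) (t : ℝ) : spinWaveDeficit ((n : ℝ) / 2) t = fS ((n : ℝ) / 2) t := by
  unfold spinWaveDeficit fS
  rw [cS_eq]
  congr 1
  refine tsum_congr fun j => ?_
  rw [H.rpow_three_half (by positivity)]

theorem ipress_eq (n : ℕ) (t : ℝ) : spinWavePressure ((n : ℝ) / 2) t = FS ((n : ℝ) / 2) t := by
  unfold spinWavePressure FS
  rw [cS_eq]
  congr 1
  refine tsum_congr fun j => ?_
  have hj : (0 : ℝ) < (j : ℝ) + 1 := by positivity
  rw [show (5 / 2 : ℝ) = 1 + 3 / 2 by norm_num, Real.rpow_add hj, Real.rpow_one,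
    H.rpow_three_half hj.le]

theorem mag_eq (n : ℕ) (β h : ℝ) : magField n β h = H.magAt n β h := rfl

theorem finMag_eq (n N : ℕ) (β h : ℝ) :
    finMag n N β h = gibbsMag n (P361.box N) β h / (P361.box N).card := rfl

/-- Magnetization, infinite volume. -/
theorem mag_law {n : ℕ} (hn : 1 ≤ n) {ε : ℝ} (hε : 0 < ε) : ∀ᶠ β : ℝ in atTop,
    ∀ h : ℝ, 0 ≤ h →
      |β ^ (3 / 2 : ℝ) * ((n : ℝ) / 2 - magField n β h) - spinWaveDeficit ((n : ℝ) / 2) (β * h)| ≤
        ε * spinWaveDeficit ((n : ℝ) / 2) (β * h) := by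
  obtain ⟨K, hK1, hK⟩ := mag_low hn
  have hK2 : Tendsto (fun β : ℝ => K / β) atTop (𝓝 0) := tendsto_const_nhds.div_atTop tendsto_id
  filter_upwards [mag_up hn hε, eventually_ge_atTop K,
    hK2.eventually (ge_mem_nhds hε)] with β hU hβK hK2 h hh
  have hβ0 : 0 < β := by linarith
  have h1 := hU (β * h) (by positivity)
  have h2 := hK β hβK (β * h) (by positivity)
  rw [mul_div_cancel_left₀ h hβ0.ne'] at h1 h2
  rw [H.rpow_three_half hβ0.le, deficit_eq, mag_eq]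
  have h3 := mul_le_mul_of_nonneg_right hK2 (fS_nonneg ((n : ℝ) / 2) (β * h))
  rw [abs_le]
  constructor <;> linarith

/-- Pressure. -/
theorem pressure_law {n : ℕ} (hn : 1 ≤ n) {ε : ℝ} (hε : 0 < ε) : ∀ᶠ β : ℝ in atTop,
    ∀ h : ℝ, 0 ≤ h →
      |β ^ (5 / 2 : ℝ) * (Model.pressure n β h - 3 * ((n : ℝ) / 2) ^ 2 - (n : ℝ) / 2 * h) -
        spinWavePressure ((n : ℝ) / 2) (β * h)| ≤ ε * spinWavePressure ((n : ℝ) / 2) (β * h) := by
  obtain ⟨K, hK1, hK⟩ := gRed_low hn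
  have hK2 : Tendsto (fun β : ℝ => K / β) atTop (𝓝 0) := tendsto_const_nhds.div_atTop tendsto_id
  filter_upwards [gRed_up hn hε, eventually_ge_atTop K,
    hK2.eventually (ge_mem_nhds hε)] with β hU hβK hK2 h hh
  have hβ0 : 0 < β := by linarith
  have h1 := hU (β * h) (by positivity)
  have h2 := hK β hβK (β * h) (by positivity)
  rw [mul_div_cancel_left₀ h hβ0.ne'] at h1 h2
  have e1 : β ^ (5 / 2 : ℝ) * (Model.pressure n β h - 3 * ((n : ℝ) / 2) ^ 2 - (n : ℝ) / 2 * h) =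
      Real.sqrt β ^ 3 * gRed n β h := by
    rw [show (5 / 2 : ℝ) = 3 / 2 + 1 by norm_num, Real.rpow_add hβ0, Real.rpow_one,
      H.rpow_three_half hβ0.le]
    have e2 : Model.pressure n β h = pressure n β h := rfl
    unfold gRed
    rw [e2]
    ring
  rw [e1, ipress_eq]
  have h3 := mul_le_mul_of_nonneg_right hK2 (FS_nonneg ((n : ℝ) / 2) (β * h))
  rw [abs_le]
  constructor <;> linarith

/-- Everything. -/
theorem final (n : ℕ) (hn : 1 ≤ n) :
    (∀ β : ℝ, 0 < β →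
      (∀ h : ℝ, Tendsto (fun N : ℕ => Model.finPressure n N β h) atTop
        (𝓝 (Model.pressure n β h))) ∧
      ConvexOn ℝ Set.univ (Model.pressure n β) ∧
      (∀ h : ℝ, Model.pressure n β (-h) = Model.pressure n β h) ∧
      HasDerivWithinAt (Model.pressure n β) (Model.spontMag n β) (Set.Ioi 0) 0 ∧
      HasDerivWithinAt (Model.pressure n β) (-Model.spontMag n β) (Set.Iio 0) 0 ∧
      ∀ h : ℝ, 0 ≤ h →
        HasDerivWithinAt (Model.pressure n β) (magField n β h) (Set.Ioi h) h ∧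
        0 ≤ Model.spontMag n β ∧ Model.spontMag n β ≤ magField n β h ∧ magField n β h ≤ (n : ℝ) / 2) ∧
    (∃ β₀ : ℝ, 0 < β₀ ∧ ∀ β : ℝ, β₀ ≤ β → 0 < Model.spontMag n β) ∧
    Tendsto (fun β : ℝ => Model.spontMag n β) atTop (𝓝 ((n : ℝ) / 2)) ∧
    Tendsto (fun β : ℝ => β ^ (3 / 2 : ℝ) * ((n : ℝ) / 2 - Model.spontMag n β)) atTop
      (𝓝 ((riemannZeta (3 / 2)).re /
        (8 * Real.pi ^ (3 / 2 : ℝ) * ((n : ℝ) / 2) ^ (3 / 2 : ℝ)))) ∧
    (∀ ε : ℝ, 0 < ε → ∀ᶠ β : ℝ in atTop, ∀ h : ℝ, 0 ≤ h →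
      |β ^ (3 / 2 : ℝ) * ((n : ℝ) / 2 - magField n β h) - spinWaveDeficit ((n : ℝ) / 2) (β * h)| ≤
        ε * spinWaveDeficit ((n : ℝ) / 2) (β * h)) ∧
    (∀ ε : ℝ, 0 < ε → ∀ᶠ β : ℝ in atTop, ∀ h : ℝ, 0 ≤ h →
      |β ^ (5 / 2 : ℝ) * (Model.pressure n β h - 3 * ((n : ℝ) / 2) ^ 2 - (n : ℝ) / 2 * h) -
        spinWavePressure ((n : ℝ) / 2) (β * h)| ≤ ε * spinWavePressure ((n : ℝ) / 2) (β * h)) ∧
    (∀ ε : ℝ, 0 < ε → ∀ᶠ β : ℝ in atTop, ∀ h : ℝ, 0 < h → ∀ᶠ N : ℕ in atTop,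
      |β ^ (3 / 2 : ℝ) * ((n : ℝ) / 2 - finMag n N β h) -
        spinWaveDeficit ((n : ℝ) / 2) (β * h)| ≤ ε * spinWaveDeficit ((n : ℝ) / 2) (β * h)) := by
  have hb := LRO.S3S.bloch_all n hn
  refine ⟨fun β hβ => ⟨(hb.1 β hβ).1, (hb.1 β hβ).2.1, pressure_even n hβ, (hb.1 β hβ).2.2.1,
    leftDeriv n hβ, fun h hh => ⟨pressure_hasRightDeriv n hβ h, spontMag_nonneg n hβ,
      magAt_mono n hβ hh, magAt_le hn hβ hh⟩⟩, hb.2.1, hb.2.2.1, hb.2.2.2,
    fun ε hε => mag_law hn hε, fun ε hε => pressure_law hn hε, fun ε hε => ?_⟩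
  filter_upwards [finMag_law hn hε, eventually_ge_atTop 0] with β hF hβ h hh
  filter_upwards [hF h hh] with N hN
  rw [H.rpow_three_half hβ, deficit_eq, finMag_eq]
  exact hN

end Vale.Agent.P361.H285
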