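import Vale.Agent.P361.Bd6.B10
import Vale.Agent.P361.H285.Defs

/-!
Strong fields: the partition function of a cube as a polynomial in `e^{-t}`, and a sharp bound of
the reduced pressure with relative error for `t ≥ (log β) / 100`.
-/

namespace Vale.Agent.P361.H285

open Filter Topology Matrix Vale.Agent.P361.B
open scoped ComplexOrder

/-- The polarized sector of the partition function. -/
theorem a_zero (n : ℕ) (Λ : Finset Site) (b : ℝ) :
    (trace (NormedSpace.exp (((-b : ℝ) : ℂ) • hT n Λ) * pj n Λ 0)).re = 1 := by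
  have h0 : hT n Λ * pj n Λ 0 = 0 := by
    ext σ τ
    rw [pj, Matrix.mul_diagonal]
    split_ifs with h
    · have hτ : τ = fun _ => 0 := by
        funext x
        have h1 : (∑ x, (τ x : ℕ)) = 0 := h
        have h2 := (Finset.sum_eq_zero_iff.1 h1) x (Finset.mem_univ _)
        exact Fin.ext h2
      subst hτ
      have h3 := congrFun (hT_e0 (n := n) (Λ := Λ)) σ
      rw [e0, Matrix.mulVec_single_one] at h3
      rw [mul_one]
      exact h3
    · simp
  have h1 : pj n Λ 0 * hT n Λ = 0 := by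
    have h2 := congrArg Matrix.conjTranspose h0
    rw [Matrix.conjTranspose_mul, hT_isHermitian.eq, Matrix.conjTranspose_zero] at h2
    have h3 : (pj n Λ 0)ᴴ = pj n Λ 0 := by
      rw [pj, Matrix.diagonal_conjTranspose]
      congr 1
      funext σ
      simp only [Pi.star_apply]
      split_ifs <;> simp
    rwa [h3] at h2
  rw [Matrix.trace_mul_comm]
  have h2 := hasSum_trace_exp (pj n Λ 0) (hT n Λ) (((-b : ℝ) : ℂ))
  have h3 : HasSum (fun k : ℕ => ((k.factorial : ℂ)⁻¹) * ((((-b : ℝ) : ℂ)) ^ k *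
      trace (pj n Λ 0 * hT n Λ ^ k))) (trace (pj n Λ 0)) := by
    have h4 := hasSum_single (f := fun k : ℕ => ((k.factorial : ℂ)⁻¹) * ((((-b : ℝ) : ℂ)) ^ k *
      trace (pj n Λ 0 * hT n Λ ^ k))) 0 (fun k hk => by
        obtain ⟨k', rfl⟩ := Nat.exists_eq_succ_of_ne_zero hk
        simp only [Nat.succ_eq_add_one]
        rw [pow_succ' (hT n Λ), ← Matrix.mul_assoc, h1]
        simp)
    simpa using h4
  rw [h2.unique h3, trace_pj]
  have h5 : dimS n Λ 0 = 1 := by
    unfold dimS
    rw [Finset.card_eq_one]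
    refine ⟨fun _ => 0, ?_⟩
    ext σ
    simp only [Finset.mem_filter, Finset.mem_univ, true_and, Finset.mem_singleton]
    constructor
    · intro h
      funext x
      have h1 : (∑ x, (σ x : ℕ)) = 0 := h
      have h2 := (Finset.sum_eq_zero_iff.1 h1) x (Finset.mem_univ _)
      exact Fin.ext h2
    · rintro rfl
      simp [cntS]
  rw [h5]
  simp

theorem a_nonneg (n : ℕ) (Λ : Finset Site) (b : ℝ) (i : ℕ) :
    0 ≤ (trace (NormedSpace.exp (((-b : ℝ) : ℂ) • hT n Λ) * pj n Λ i)).re := by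
  have hXh : (((-b : ℝ) : ℂ) • hT n Λ).IsHermitian := by
    rw [Matrix.IsHermitian, Matrix.conjTranspose_smul, hT_isHermitian]
    simp
  refine trace_exp_mul_nonneg hXh ?_
  unfold pj
  refine Matrix.PosSemidef.diagonal fun σ => ?_
  simp only [Pi.zero_apply]
  split_ifs <;> simp

/-- The magnons weigh `e^{-t}` each: exponential decay of `Zt - 1` in the field. -/
theorem zt_sub_one (n : ℕ) (Λ : Finset Site) {b t₀ t : ℝ} (h : t₀ ≤ t) :
    Zt n Λ b t - 1 ≤ Real.exp (-(t - t₀)) * (Zt n Λ b t₀ - 1) := by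
  rw [Su2.Zt_eq_sum, Su2.Zt_eq_sum, Finset.sum_range_succ', Finset.sum_range_succ', a_zero]
  simp only [Nat.cast_zero, mul_zero, Real.exp_zero, mul_one, add_sub_cancel_right]
  rw [Finset.mul_sum]
  refine Finset.sum_le_sum fun i _ => ?_
  rw [← mul_assoc, ← Real.exp_add]
  refine mul_le_mul_of_nonneg_right (Real.exp_le_exp.2 ?_) (a_nonneg n Λ b (i + 1))
  push_cast
  have hi : (0 : ℝ) ≤ i := Nat.cast_nonneg i
  nlinarith

end Vale.Agent.P361.H285
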