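import Vale.Agent.P361.H285.Sector

/-!
The one-magnon asymptotics of the partition function of a cube in the field `t₀ = (log β) / 100`.
-/

namespace Vale.Agent.P361.H285

open Filter Topology Matrix Vale.Agent.P361.B
open Vale.Agent.P361.H (bJ bJ_nonneg bJ_antitone)

/-- `(4πS)^{-3/2}`. -/
noncomputable def cS (n : ℕ) : ℝ := (Real.sqrt (4 * Real.pi * ((n : ℝ) / 2)) ^ 3)⁻¹

theorem cS_pos {n : ℕ} (hn : 1 ≤ n) : 0 < cS n := by
  have hnR : (1 : ℝ) ≤ n := by exact_mod_cast hn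
  have := Real.pi_pos
  have h : 0 < Real.sqrt (4 * Real.pi * ((n : ℝ) / 2)) := Real.sqrt_pos.2 (by positivity)
  unfold cS
  positivity

/-- Free bosons in a positive field: every boson weighs `e^{-t}`. -/
theorem bosSer_rel (n L : ℕ) {β t : ℝ} (hβ : 0 ≤ β) (ht : 0 < t) :
    bosSer n L β t ≤ Real.exp (-t) / (1 - Real.exp (-t)) * (1 + L * bJ (n * β)) ^ 3 := by
  have hlt : Real.exp (-t) < 1 := by rw [Real.exp_lt_one_iff]; linarith
  have hgeo := (hasSum_geometric_of_lt_one (Real.exp_pos (-t)).le hlt).mul_left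
    (Real.exp (-t) * (1 + L * bJ (n * β)) ^ 3)
  have e1 : Real.exp (-t) * (1 + L * bJ (n * β)) ^ 3 * (1 - Real.exp (-t))⁻¹ =
      Real.exp (-t) / (1 - Real.exp (-t)) * (1 + L * bJ (n * β)) ^ 3 := by
    rw [div_eq_mul_inv]; ring
  rw [e1] at hgeo
  have hs := bosSer_summable n L hβ ht
  unfold bosSer
  refine hasSum_le (fun j => ?_) hs.hasSum hgeo
  have hb := bJ_nonneg (((j : ℝ) + 1) * (n * β))
  have hj : (0 : ℝ) ≤ j := Nat.cast_nonneg j
  have h1 : Real.exp (-(((j : ℝ) + 1) * t)) / ((j : ℝ) + 1) ≤ Real.exp (-t) * Real.exp (-t) ^ j := by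
    rw [← pow_succ', ← Real.exp_nat_mul, div_le_iff₀ (by positivity)]
    have : Real.exp (-(((j : ℝ) + 1) * t)) = Real.exp (((j + 1 : ℕ) : ℝ) * -t) := by
      congr 1; push_cast; ring
    rw [this]
    have h2 := Real.exp_pos (((j + 1 : ℕ) : ℝ) * -t)
    nlinarith
  have h2 : (1 + L * bJ (((j : ℝ) + 1) * (n * β))) ^ 3 ≤ (1 + L * bJ (n * β)) ^ 3 := by
    refine pow_le_pow_left₀ (by positivity) ?_ 3
    have h3 : bJ (((j : ℝ) + 1) * (n * β)) ≤ bJ (n * β) := by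
      refine bJ_antitone ?_
      have : 0 ≤ (n : ℝ) * β := by positivity
      nlinarith
    have := mul_le_mul_of_nonneg_left h3 (Nat.cast_nonneg (α := ℝ) L)
    linarith
  calc _ ≤ Real.exp (-t) * Real.exp (-t) ^ j * (1 + L * bJ (n * β)) ^ 3 :=
        mul_le_mul h1 h2 (by positivity) (by positivity)
    _ = _ := by ring

/-- The Bessel factor of one magnon. -/
theorem bJ_one {n : ℕ} (hn : 1 ≤ n) {β : ℝ} (hβ : 1 ≤ β) :
    Real.sqrt β * bJ (n * β) ≤ (1 + 448 / β) / Real.sqrt (4 * Real.pi * ((n : ℝ) / 2)) := by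
  have hnR : (1 : ℝ) ≤ n := by exact_mod_cast hn
  have hβ0 : 0 < β := by linarith
  have hpi := Real.pi_pos
  have hnβ : β ≤ n * β := le_mul_of_one_le_left hβ0.le hnR
  have h1 := bJ_upper (a := n * β) (by linarith)
  have h2 : 448 / ((n : ℝ) * β) ≤ 448 / β := div_le_div_of_nonneg_left (by norm_num) hβ0 hnβ
  have h3 : Real.sqrt (2 * Real.pi * (n * β)) =
      Real.sqrt (4 * Real.pi * ((n : ℝ) / 2)) * Real.sqrt β := by
    rw [← Real.sqrt_mul (by positivity)]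
    congr 1
    ring
  rw [h3] at h1
  rw [le_div_iff₀ (Real.sqrt_pos.2 (by positivity))]
  linarith

/-- The interaction error is a negative power of `β`. -/
theorem inter_small {β A N W : ℝ} (hβ1 : 1 ≤ β) (hA : A = 16 * β ^ (1 / 100 : ℝ)) (hN0 : 0 ≤ N)
    (hN : N ≤ 2 * A) (hW0 : 0 ≤ W) (hW : W ≤ 899 * Real.sqrt (A / β)) :
    β * (12 * Real.exp 2 * (N ^ 2 * W ^ 3)) ≤
      12 * Real.exp 2 * (4 * 16 ^ 2) * (899 ^ 3 * Real.sqrt 16 ^ 3) * β ^ (-(9 / 20) : ℝ) := by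
  have hβ0 : 0 < β := by linarith
  have pp : ∀ a : ℝ, 0 < β ^ a := fun a => Real.rpow_pos_of_pos hβ0 a
  have h1 : N ^ 2 ≤ (2 * A) ^ 2 := pow_le_pow_left₀ hN0 hN 2
  have h1' : W ^ 3 ≤ (899 * Real.sqrt (A / β)) ^ 3 := pow_le_pow_left₀ hW0 hW 3
  have h3 : Real.sqrt (A / β) ^ 3 = Real.sqrt 16 ^ 3 * β ^ (-(297 / 200) : ℝ) := by
    have e1 : A / β = 16 * β ^ (-(99 / 100) : ℝ) := by
      rw [hA, show (-(99 / 100) : ℝ) = 1 / 100 - 1 by norm_num, Real.rpow_sub hβ0, Real.rpow_one]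
      ring
    rw [e1, Real.sqrt_mul (by norm_num), mul_pow, Real.sqrt_eq_rpow (β ^ _),
      ← Real.rpow_mul hβ0.le, ← Real.rpow_natCast (β ^ _), ← Real.rpow_mul hβ0.le]
    norm_num
  have h2 : N ^ 2 * W ^ 3 ≤ (2 * A) ^ 2 * (899 * Real.sqrt (A / β)) ^ 3 :=
    mul_le_mul h1 h1' (by positivity) (by positivity)
  have h4 : β * (12 * Real.exp 2 * (N ^ 2 * W ^ 3)) ≤
      β * (12 * Real.exp 2 * ((2 * A) ^ 2 * (899 * Real.sqrt (A / β)) ^ 3)) :=
    mul_le_mul_of_nonneg_left (mul_le_mul_of_nonneg_left h2 (by positivity)) hβ0.le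
  refine h4.trans ?_
  have h5 : β * (12 * Real.exp 2 * ((2 * A) ^ 2 * (899 * Real.sqrt (A / β)) ^ 3)) =
      12 * Real.exp 2 * (4 * 16 ^ 2) * (899 ^ 3 * Real.sqrt 16 ^ 3) *
      (β * (β ^ (1 / 100 : ℝ)) ^ 2 * β ^ (-(297 / 200) : ℝ)) := by
    rw [mul_pow 899, h3, hA]
    ring
  rw [h5]
  refine mul_le_mul_of_nonneg_left ?_ (by positivity)
  have h6 : β * (β ^ (1 / 100 : ℝ)) ^ 2 * β ^ (-(297 / 200) : ℝ) = β ^ (-(93 / 200) : ℝ) := by
    rw [← Real.rpow_natCast (β ^ _), ← Real.rpow_mul hβ0.le]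
    nth_rewrite 1 [← Real.rpow_one β]
    rw [← Real.rpow_add hβ0, ← Real.rpow_add hβ0]
    norm_num
  rw [h6]
  exact Real.rpow_le_rpow_of_exponent_le hβ1 (by norm_num)

end Vale.Agent.P361.H285
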