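import Vale.Agent.P361.H285.Strong

/-!
The one-magnon asymptotics of the partition function of a cube in the field `t₀ = (log β) / 100`.
-/

namespace Vale.Agent.P361.H285

open Filter Topology Matrix Vale.Agent.P361.B
open Vale.Agent.P361.H (bJ bJ_nonneg bJ_antitone)

/-- The constant of `inter_small`. -/
noncomputable def K0 : ℝ := 12 * Real.exp 2 * (4 * 16 ^ 2) * (899 ^ 3 * Real.sqrt 16 ^ 3)

/-- Upper bound of `(√β/L + √β bJ)³`. -/
noncomputable def Y0 (n : ℕ) (β : ℝ) : ℝ :=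
  (2 * β ^ (-(1 / 500) : ℝ) + (1 + 448 / β) / Real.sqrt (4 * Real.pi * ((n : ℝ) / 2))) ^ 3

/-- The majorant. -/
noncomputable def G0 (n : ℕ) (β : ℝ) : ℝ :=
  2 * (β ^ (1 / 100 : ℝ) * Real.exp (-(8 * β ^ (1 / 100 : ℝ)))) +
    (K0 * β ^ (-(44 / 100) : ℝ) + Y0 n β / (1 - β ^ (-(1 / 100) : ℝ))) *
      (1 + K0 * β ^ (-(9 / 20) : ℝ) +
        8 * β ^ (-(1 / 250) : ℝ) * (Y0 n β / (1 - β ^ (-(1 / 100) : ℝ))))

theorem Y0_tendsto (n : ℕ) : Tendsto (Y0 n) atTop (𝓝 (cS n)) := by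
  have h1 : Tendsto (fun β : ℝ => β ^ (-(1 / 500) : ℝ)) atTop (𝓝 0) :=
    tendsto_rpow_neg_atTop (by norm_num)
  have h2 : Tendsto (fun β : ℝ => (448 : ℝ) / β) atTop (𝓝 0) :=
    tendsto_const_nhds.div_atTop tendsto_id
  have h3 := ((h1.const_mul 2).add ((h2.const_add 1).div_const
    (Real.sqrt (4 * Real.pi * ((n : ℝ) / 2))))).pow 3
  have e : (2 * 0 + (1 + 0) / Real.sqrt (4 * Real.pi * ((n : ℝ) / 2))) ^ 3 = cS n := by
    unfold cS
    rw [mul_zero, zero_add, add_zero, one_div, inv_pow]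
  rw [e] at h3
  exact h3

theorem G0_tendsto (n : ℕ) : Tendsto (G0 n) atTop (𝓝 (cS n)) := by
  have r : ∀ a : ℝ, 0 < a → Tendsto (fun β : ℝ => β ^ (-a)) atTop (𝓝 0) := fun a ha =>
    tendsto_rpow_neg_atTop ha
  have h1 : Tendsto (fun β : ℝ => β ^ (1 / 100 : ℝ) * Real.exp (-(8 * β ^ (1 / 100 : ℝ)))) atTop
      (𝓝 0) := by
    have g1 : Tendsto (fun x : ℝ => x * Real.exp (-(8 * x))) atTop (𝓝 0) := by
      have g2 := Real.tendsto_pow_mul_exp_neg_atTop_nhds_zero 1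
      have g3 : Tendsto (fun x : ℝ => 8 * x) atTop atTop :=
        tendsto_id.const_mul_atTop (by norm_num)
      have g4 := (g2.comp g3).const_mul (1 / 8 : ℝ)
      rw [mul_zero] at g4
      refine g4.congr fun x => ?_
      simp only [Function.comp, pow_one]
      ring
    exact g1.comp (tendsto_rpow_atTop (by norm_num))
  have h2 : Tendsto (fun β : ℝ => Y0 n β / (1 - β ^ (-(1 / 100) : ℝ))) atTop (𝓝 (cS n)) := by
    have h := (Y0_tendsto n).div ((r (1 / 100) (by norm_num)).const_sub 1) (by norm_num)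
    rw [sub_zero, div_one] at h
    exact h
  have h3 := (h1.const_mul 2).add ((((r (44 / 100) (by norm_num)).const_mul K0).add h2).mul
    ((((r (9 / 20) (by norm_num)).const_mul K0).const_add 1).add
      (((r (1 / 250) (by norm_num)).const_mul 8).mul h2)))
  have e : 2 * 0 + (K0 * 0 + cS n) * (1 + K0 * 0 + 8 * 0 * cS n) = cS n := by ring
  rw [e] at h3
  exact h3

/-- One magnon asymptotics of a cube of side slightly larger than `√β` in the field
`t₀ = (log β) / 100`. -/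
theorem strong_G {n : ℕ} (hn : 1 ≤ n) : ∀ᶠ β : ℝ in atTop, ∃ L : ℕ, 0 < L ∧
    Real.sqrt β ^ 3 / (L : ℝ) ^ 3 * (Zt n (B.cube L) β (Real.log β / 100) - 1) ≤
      G0 n β * β ^ (-(1 / 100) : ℝ) := by
  have hnR : (1 : ℝ) ≤ n := by exact_mod_cast hn
  have r : ∀ a : ℝ, 0 < a → Tendsto (fun β : ℝ => β ^ (-a)) atTop (𝓝 0) := fun a ha =>
    tendsto_rpow_neg_atTop ha
  have lY : Tendsto (fun β : ℝ => Y0 n β / (1 - β ^ (-(1 / 100) : ℝ))) atTop (𝓝 (cS n)) := by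
    have h := (Y0_tendsto n).div ((r (1 / 100) (by norm_num)).const_sub 1) (by norm_num)
    rw [sub_zero, div_one] at h
    exact h
  have l1 : Tendsto (fun β : ℝ => K0 * β ^ (-(9 / 20) : ℝ) +
      8 * β ^ (-(1 / 250) : ℝ) * (Y0 n β / (1 - β ^ (-(1 / 100) : ℝ)))) atTop (𝓝 0) := by
    have := ((r (9 / 20) (by norm_num)).const_mul K0).add
      (((r (1 / 250) (by norm_num)).const_mul 8).mul lY)
    simpa using this
  filter_upwards [ZF.exists_cube_ub hn (κ := 1 / 1000) (η := 1 / 1000) (by norm_num) (by norm_num)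
      (by norm_num), eventually_ge_atTop (Real.exp 100),
    (tendsto_rpow_atTop (show (0 : ℝ) < 99 / 100 by norm_num)).eventually_ge_atTop 16,
    (r (1 / 500) (by norm_num)).eventually (ge_mem_nhds (show (0 : ℝ) < 1 / 2 by norm_num)),
    l1.eventually (ge_mem_nhds (show (0 : ℝ) < 1 by norm_num)),
    (r (1 / 100) (by norm_num)).eventually (gt_mem_nhds (show (0 : ℝ) < 1 by norm_num))]
    with β hcube hβe h16 hq hsmall ha1
  obtain ⟨L, hLpos, hLge, hLle, hz1⟩ := hcube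
  rw [show (1 / 2 + 1 / 1000 + 1 / 1000 : ℝ) = 1 / 2 + 1 / 500 by norm_num] at hLge hLle
  rw [show (3 * (1 / 1000) + 7 * (1 / 1000) : ℝ) = 1 / 100 by norm_num] at hz1
  refine ⟨L, hLpos, ?_⟩
  have hβ1 : 1 ≤ β := le_trans (by
    have := Real.add_one_le_exp (100 : ℝ)
    linarith) hβe
  have hβ0 : 0 < β := by linarith
  have hLR : (0 : ℝ) < L := by exact_mod_cast hLpos
  have pp : ∀ a : ℝ, 0 < β ^ a := fun a => Real.rpow_pos_of_pos hβ0 a
  have pw : ∀ {a b : ℝ}, a ≤ b → β ^ a ≤ β ^ b := fun h =>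
    Real.rpow_le_rpow_of_exponent_le hβ1 h
  -- the field
  set t : ℝ := Real.log β / 100 with ht
  have ht1 : 1 ≤ t := by
    rw [ht, le_div_iff₀ (by norm_num), one_mul, Real.le_log_iff_exp_le hβ0]
    exact hβe
  have ht0 : 0 < t := by linarith
  have hexp : Real.exp (-t) = β ^ (-(1 / 100) : ℝ) := by
    rw [Real.rpow_def_of_pos hβ0, ht]
    congr 1
    ring
  -- parameters
  obtain ⟨A, hA⟩ : ∃ A : ℝ, A = 16 * β ^ (1 / 100 : ℝ) := ⟨_, rfl⟩
  have hA16 : 16 ≤ A := by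
    have : 1 ≤ β ^ (1 / 100 : ℝ) := Real.one_le_rpow hβ1 (by norm_num)
    rw [hA]; linarith
  have hz1' : Real.log (Zt n (B.cube L) (β / 2) 0) ≤ A / 2 := by rw [hA]; linarith
  have hz2 : Real.log (Zt n (B.cube L) β 0) ≤ A / 2 :=
    (Real.log_le_log (Zt_pos β 0) (Zt_anti (by linarith) le_rfl)).trans hz1'
  have hAβ : A ≤ β := by
    have h1 : β ^ (1 / 100 : ℝ) * β ^ (99 / 100 : ℝ) = β := by
      rw [← Real.rpow_add hβ0]
      nth_rewrite 2 [← Real.rpow_one β]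
      norm_num
    calc A = β ^ (1 / 100 : ℝ) * 16 := by rw [hA]; ring
      _ ≤ β ^ (1 / 100 : ℝ) * β ^ (99 / 100 : ℝ) := mul_le_mul_of_nonneg_left h16 (pp _).le
      _ = β := h1
  obtain ⟨N1, hN1a, hN1b⟩ : ∃ N1 : ℕ, A ≤ t * N1 ∧ (N1 : ℝ) ≤ 2 * A := by
    refine ⟨⌈A / t⌉₊, ?_, ?_⟩
    · have := Nat.le_ceil (A / t)
      rwa [div_le_iff₀ ht0, mul_comm] at this
    · have h1 := (Nat.ceil_lt_add_one (by positivity : 0 ≤ A / t)).le
      have h2 : A / t ≤ A := div_le_self (by linarith) ht1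
      linarith
  -- sides
  have sb1 : Real.sqrt β / L ≤ 2 * β ^ (-(1 / 500) : ℝ) := by
    rw [div_le_iff₀ hLR, Real.sqrt_eq_rpow]
    have h2 : β ^ (-(1 / 500) : ℝ) * β ^ (1 / 2 + 1 / 500 : ℝ) = β ^ (1 / 2 : ℝ) := by
      rw [← Real.rpow_add hβ0]; norm_num
    have h4 := mul_le_mul_of_nonneg_left hLge (pp (-(1 / 500) : ℝ)).le
    linarith only [h2, h4]
  have sb2 : Real.sqrt β / L ≤ 1 := by linarith
  have sb0 : 0 ≤ Real.sqrt β / L := by positivity
  have sb3 : β ≤ (L : ℝ) ^ 2 := by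
    rw [div_le_one hLR] at sb2
    calc β = Real.sqrt β ^ 2 := (Real.sq_sqrt hβ0.le).symm
      _ ≤ _ := pow_le_pow_left₀ (Real.sqrt_nonneg _) sb2 2
  have hsb : 0 < Real.sqrt β := Real.sqrt_pos.2 hβ0
  have sb4 : (L : ℝ) / Real.sqrt β ≤ 2 * β ^ (1 / 500 : ℝ) := by
    rw [div_le_iff₀ hsb, Real.sqrt_eq_rpow, mul_assoc, ← Real.rpow_add hβ0, add_comm]
    exact hLle
  have hR0 : 0 < Real.sqrt β ^ 3 / (L : ℝ) ^ 3 := by positivity
  have hR1 : Real.sqrt β ^ 3 / (L : ℝ) ^ 3 ≤ 1 := by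
    rw [← div_pow]; exact pow_le_one₀ sb0 sb2
  -- the interaction error
  have hbJ := bJ_param hn hβ0 (by linarith) hAβ
  have hLinv : 1 / (L : ℝ) ≤ Real.sqrt (A / β) := by
    refine Real.le_sqrt_of_sq_le ?_
    rw [div_pow, one_pow, div_le_div_iff₀ (by positivity) hβ0, one_mul]
    have c4 := mul_le_mul_of_nonneg_right hA16 (sq_nonneg (L : ℝ))
    linarith only [sb3, c4, sq_nonneg (L : ℝ)]
  obtain ⟨D, hD⟩ : ∃ D : ℝ, D = β * (12 * Real.exp 2 * ((N1 : ℝ) ^ 2 *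
    (1 / (L : ℝ) + 2 * bJ (2 * n / (2 * A / β))) ^ 3)) := ⟨_, rfl⟩
  have hD0 : 0 ≤ D := by
    have := bJ_nonneg (2 * n / (2 * A / β))
    rw [hD]; positivity
  have hDle : D ≤ K0 * β ^ (-(9 / 20) : ℝ) := by
    rw [hD]
    exact inter_small hβ1 hA (Nat.cast_nonneg N1) hN1b
      (by have := bJ_nonneg (2 * n / (2 * A / β)); positivity) (by linarith)
  -- the free part
  have hsplit := Zt_split hn hLpos (β := β) (t := t) (E1 := 2 * A / β) hβ0.le ht0
    (by positivity) N1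
  rw [← hD] at hsplit
  set P := ∏ k : B.cube L, (1 - Real.exp (-(t + β * ((n : ℝ) / 2 * lam3 L k))))⁻¹ with hP
  have hP1 : 1 ≤ P := one_le_prod L hβ0.le ht0
  obtain ⟨x, hx⟩ : ∃ x : ℝ, x = Real.log P := ⟨_, rfl⟩
  have hx0 : 0 ≤ x := by rw [hx]; exact Real.log_nonneg hP1
  have hPx : P = Real.exp x := by rw [hx, Real.exp_log (by linarith)]
  have hxle : x ≤ Real.exp (-t) / (1 - Real.exp (-t)) * (1 + L * bJ (n * β)) ^ 3 := by
    rw [hx]; exact (log_prod_le hLpos hβ0.le ht0).trans (bosSer_rel n L hβ0.le ht0)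
  rw [hexp] at hxle
  obtain ⟨a, ha⟩ : ∃ a : ℝ, a = β ^ (-(1 / 100) : ℝ) := ⟨_, rfl⟩
  have ha0 : 0 < a := by rw [ha]; exact pp _
  rw [← ha] at hxle ha1 ⊢
  have h1a : 0 < 1 - a := by linarith
  -- `R x ≤ a Y`
  obtain ⟨Y, hY⟩ : ∃ Y : ℝ, Y = Y0 n β / (1 - β ^ (-(1 / 100) : ℝ)) := ⟨_, rfl⟩
  have hYe : Y = Y0 n β / (1 - a) := by rw [hY, ha]
  have hRx : Real.sqrt β ^ 3 / (L : ℝ) ^ 3 * x ≤ a * Y := by
    have h1 := mul_le_mul_of_nonneg_left hxle hR0.le
    refine h1.trans ?_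
    have h2 : Real.sqrt β ^ 3 / (L : ℝ) ^ 3 * (a / (1 - a) * (1 + L * bJ (n * β)) ^ 3) =
        a / (1 - a) * (Real.sqrt β / L + Real.sqrt β * bJ (n * β)) ^ 3 := by
      have : Real.sqrt β / L + Real.sqrt β * bJ (n * β) =
          Real.sqrt β / L * (1 + L * bJ (n * β)) := by
        field_simp
      rw [this, mul_pow, div_pow]
      ring
    rw [h2]
    have h3 : (Real.sqrt β / L + Real.sqrt β * bJ (n * β)) ^ 3 ≤ Y0 n β := by
      unfold Y0
      refine pow_le_pow_left₀ ?_ (add_le_add sb1 (bJ_one hn hβ1)) 3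
      have := bJ_nonneg (n * β)
      positivity
    have h4 := mul_le_mul_of_nonneg_left h3 (div_nonneg ha0.le h1a.le)
    refine h4.trans (le_of_eq ?_)
    rw [hYe]
    ring
  have hY0 : 0 ≤ Y := by
    by_contra h
    push Not at h
    have h1 : a * Y < 0 := mul_neg_of_pos_of_neg ha0 h
    have h2 : 0 ≤ Real.sqrt β ^ 3 / (L : ℝ) ^ 3 * x := by positivity
    linarith
  have hxY : x ≤ 8 * β ^ (-(1 / 250) : ℝ) * Y := by
    have h1 : x = ((L : ℝ) / Real.sqrt β) ^ 3 * (Real.sqrt β ^ 3 / (L : ℝ) ^ 3 * x) := by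
      rw [div_pow]; field_simp
    have h2 : ((L : ℝ) / Real.sqrt β) ^ 3 ≤ (2 * β ^ (1 / 500 : ℝ)) ^ 3 :=
      pow_le_pow_left₀ (by positivity) sb4 3
    have h3 : (2 * β ^ (1 / 500 : ℝ)) ^ 3 * a = 8 * β ^ (-(1 / 250) : ℝ) := by
      rw [ha, mul_pow, ← Real.rpow_natCast (β ^ _), ← Real.rpow_mul hβ0.le, mul_assoc,
        ← Real.rpow_add hβ0]
      norm_num
    rw [h1]
    calc _ ≤ (2 * β ^ (1 / 500 : ℝ)) ^ 3 * (a * Y) :=
          mul_le_mul h2 hRx (by positivity) (by positivity)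
      _ = _ := by rw [← mul_assoc, h3]
  -- small terms
  have e1 : Real.exp (-(β * (2 * A / β) / 2)) * Zt n (B.cube L) (β / 2) 0 ≤ Real.exp (-(A / 2)) := by
    have h3 : Zt n (B.cube L) (β / 2) 0 ≤ Real.exp (A / 2) := by
      rw [← Real.log_le_iff_le_exp (Zt_pos_eig _ _ _ _)]; exact hz1'
    have h4 : β * (2 * A / β) / 2 = A := by field_simp
    rw [h4]
    calc _ ≤ Real.exp (-A) * Real.exp (A / 2) :=
          mul_le_mul_of_nonneg_left h3 (Real.exp_pos _).le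
      _ = _ := by rw [← Real.exp_add]; congr 1; ring
  have e2 : Real.exp (-(t * N1)) * Zt n (B.cube L) β 0 ≤ Real.exp (-(A / 2)) := by
    have h3 : Zt n (B.cube L) β 0 ≤ Real.exp (A / 2) := by
      rw [← Real.log_le_iff_le_exp (Zt_pos_eig _ _ _ _)]; exact hz2
    calc _ ≤ Real.exp (-A) * Real.exp (A / 2) :=
          mul_le_mul (Real.exp_le_exp.2 (by linarith)) h3 (Zt_pos_eig _ _ _ _).le
            (Real.exp_pos _).le
      _ = _ := by rw [← Real.exp_add]; congr 1; ring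
  have hDx : D + x ≤ 1 := by
    rw [← hY] at hsmall
    linarith
  have e3 : Real.exp (D + x) ≤ 1 + (D + x) + (D + x) ^ 2 := by
    have h1 := Real.abs_exp_sub_one_sub_id_le (x := D + x) (by
      rw [abs_of_nonneg (by linarith)]; exact hDx)
    have h2 := (abs_le.1 h1).2
    linarith
  have hZ : Zt n (B.cube L) β t - 1 ≤ 2 * Real.exp (-(A / 2)) + (D + x) * (1 + D + x) := by
    have h1 : Real.exp D * P = Real.exp (D + x) := by rw [hPx, Real.exp_add]
    rw [h1] at hsplit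
    linarith only [hsplit, e1, e2, e3]
  -- conclusion
  have hG : G0 n β * a = 2 * Real.exp (-(A / 2)) +
      (K0 * β ^ (-(9 / 20) : ℝ) + a * Y) *
        (1 + K0 * β ^ (-(9 / 20) : ℝ) + 8 * β ^ (-(1 / 250) : ℝ) * Y) := by
    have g1 : β ^ (1 / 100 : ℝ) * a = 1 := by
      rw [ha, ← Real.rpow_add hβ0]; norm_num
    have g2 : β ^ (-(44 / 100) : ℝ) * a = β ^ (-(9 / 20) : ℝ) := by
      rw [ha, ← Real.rpow_add hβ0]; norm_num
    have g3 : -(A / 2) = -(8 * β ^ (1 / 100 : ℝ)) := by rw [hA]; ring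
    unfold G0
    rw [g3, ← hY, ← g2]
    linear_combination (2 * Real.exp (-(8 * β ^ (1 / 100 : ℝ)))) * g1
  rw [hG]
  have h1 := mul_le_mul_of_nonneg_left hZ hR0.le
  refine h1.trans ?_
  rw [mul_add]
  refine add_le_add ?_ ?_
  · exact mul_le_of_le_one_left (by positivity) hR1
  · rw [← mul_assoc]
    refine mul_le_mul ?_ (by linarith) (by positivity) ?_
    · rw [mul_add]
      refine add_le_add ?_ hRx
      exact (mul_le_of_le_one_left hD0 hR1).trans hDle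
    · have : 0 ≤ K0 * β ^ (-(9 / 20) : ℝ) := hD0.trans hDle
      have := mul_nonneg ha0.le hY0
      linarith

end Vale.Agent.P361.H285
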