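import Vale.Agent.P361.H285.Strong2

/-!
Upper bounds with relative error, uniformly in the field, of the reduced pressure.
-/

namespace Vale.Agent.P361.H285

open Filter Topology Matrix Vale.Agent.P361.B

/-- `FS ≥` its first term. -/
theorem FS_ge (n : ℕ) {t : ℝ} (ht : 0 ≤ t) : cS n * Real.exp (-t) ≤ FS ((n : ℝ) / 2) t := by
  unfold FS cS
  refine mul_le_mul_of_nonneg_left ?_ (by positivity)
  have h := (summable_F ht).sum_le_tsum {0} (fun i _ => by positivity)
  simpa using h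

theorem fS_ge (n : ℕ) {t : ℝ} (ht : 0 ≤ t) : cS n * Real.exp (-t) ≤ fS ((n : ℝ) / 2) t := by
  unfold fS cS
  refine mul_le_mul_of_nonneg_left ?_ (by positivity)
  have h := (summable_f ht).sum_le_tsum {0} (fun i _ => by positivity)
  simpa using h

theorem FS_anti (S : ℝ) {s t : ℝ} (hs : 0 ≤ s) (h : s ≤ t) : FS S t ≤ FS S s := by
  unfold FS
  refine mul_le_mul_of_nonneg_left ?_ (by positivity)
  refine Summable.tsum_le_tsum (fun r => ?_) (summable_F (hs.trans h)) (summable_F hs)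
  refine div_le_div_of_nonneg_right (Real.exp_le_exp.2 ?_) (by positivity)
  have : (0 : ℝ) ≤ r := Nat.cast_nonneg r
  nlinarith

theorem fS_anti (S : ℝ) {s t : ℝ} (hs : 0 ≤ s) (h : s ≤ t) : fS S t ≤ fS S s := by
  unfold fS
  refine mul_le_mul_of_nonneg_left ?_ (by positivity)
  refine Summable.tsum_le_tsum (fun r => ?_) (summable_f (hs.trans h)) (summable_f hs)
  refine div_le_div_of_nonneg_right (Real.exp_le_exp.2 ?_) (by positivity)
  have : (0 : ℝ) ≤ r := Nat.cast_nonneg r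
  nlinarith

theorem FS_le_fS (S : ℝ) {t : ℝ} (ht : 0 ≤ t) : FS S t ≤ fS S t := by
  unfold FS fS
  refine mul_le_mul_of_nonneg_left ?_ (by positivity)
  refine Summable.tsum_le_tsum (fun r => ?_) (summable_F ht) (summable_f ht)
  refine div_le_div_of_nonneg_left (Real.exp_pos _).le (by positivity) ?_
  exact le_mul_of_one_le_left (by positivity) (by linarith [Nat.cast_nonneg (α := ℝ) r])

/-- `f(t - δ) ≤ (1 + 5δ) f(t)` for `t ≥ 1`. -/
theorem fS_shift (n : ℕ) {t δ : ℝ} (ht : 1 ≤ t) (hδ : 0 ≤ δ) (hδ1 : δ ≤ 1 / 2) :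
    fS ((n : ℝ) / 2) (t - δ) ≤ (1 + 5 * δ) * fS ((n : ℝ) / 2) t := by
  have ht0 : 0 ≤ t := by linarith
  have htδ : 0 ≤ t - δ := by linarith
  have hth : 0 < t - 1 / 2 := by linarith
  have hlt : Real.exp (-(t - 1 / 2)) < 1 := by rw [Real.exp_lt_one_iff]; linarith
  have hgeo := (hasSum_geometric_of_lt_one (Real.exp_pos (-(t - 1 / 2))).le hlt).mul_left
    (δ * Real.exp (-(t - 1 / 2)))
  -- the difference
  have h1 : fS ((n : ℝ) / 2) (t - δ) - fS ((n : ℝ) / 2) t ≤
      cS n * (δ * Real.exp (-(t - 1 / 2)) * (1 - Real.exp (-(t - 1 / 2)))⁻¹) := by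
    unfold fS cS
    rw [← mul_sub, ← (summable_f htδ).tsum_sub (summable_f ht0)]
    refine mul_le_mul_of_nonneg_left ?_ (by positivity)
    refine hasSum_le (fun j => ?_) ((summable_f htδ).sub (summable_f ht0)).hasSum hgeo
    have hj : (0 : ℝ) ≤ j := Nat.cast_nonneg j
    have hs1 : 1 ≤ Real.sqrt ((j : ℝ) + 1) := by rw [Real.one_le_sqrt]; linarith
    have hs2 : Real.sqrt ((j : ℝ) + 1) ^ 2 = (j : ℝ) + 1 := Real.sq_sqrt (by positivity)
    have hs3 : (j : ℝ) + 1 ≤ Real.sqrt ((j : ℝ) + 1) ^ 3 := by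
      calc (j : ℝ) + 1 = Real.sqrt ((j : ℝ) + 1) ^ 2 * 1 := by rw [hs2, mul_one]
        _ ≤ Real.sqrt ((j : ℝ) + 1) ^ 2 * Real.sqrt ((j : ℝ) + 1) :=
          mul_le_mul_of_nonneg_left hs1 (by positivity)
        _ = _ := by ring
    rw [← sub_div, div_le_iff₀ (by positivity)]
    have e1 : Real.exp (-(((j : ℝ) + 1) * t)) =
        Real.exp (-(((j : ℝ) + 1) * (t - δ))) * Real.exp (-(((j : ℝ) + 1) * δ)) := by
      rw [← Real.exp_add]; congr 1; ring
    have e2 : 1 - ((j : ℝ) + 1) * δ ≤ Real.exp (-(((j : ℝ) + 1) * δ)) := by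
      have := Real.add_one_le_exp (-(((j : ℝ) + 1) * δ))
      linarith
    have e3 : Real.exp (-(((j : ℝ) + 1) * (t - δ))) ≤
        Real.exp (-(t - 1 / 2)) * Real.exp (-(t - 1 / 2)) ^ j := by
      rw [← pow_succ', ← Real.exp_nat_mul]
      apply Real.exp_le_exp.2
      push_cast
      nlinarith
    have e4 := Real.exp_pos (-(((j : ℝ) + 1) * (t - δ)))
    have e5 : Real.exp (-(((j : ℝ) + 1) * (t - δ))) - Real.exp (-(((j : ℝ) + 1) * t)) ≤
        Real.exp (-(((j : ℝ) + 1) * (t - δ))) * (((j : ℝ) + 1) * δ) := by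
      rw [e1]; nlinarith
    refine e5.trans ?_
    calc Real.exp (-(((j : ℝ) + 1) * (t - δ))) * (((j : ℝ) + 1) * δ)
        ≤ (Real.exp (-(t - 1 / 2)) * Real.exp (-(t - 1 / 2)) ^ j) *
          (Real.sqrt ((j : ℝ) + 1) ^ 3 * δ) :=
          mul_le_mul e3 (mul_le_mul_of_nonneg_right hs3 hδ) (by positivity) (by positivity)
      _ = _ := by ring
  have h2 : Real.exp (-(t - 1 / 2)) * (1 - Real.exp (-(t - 1 / 2)))⁻¹ ≤ 5 * Real.exp (-t) := by
    have g1 : Real.exp (-(t - 1 / 2)) = Real.exp (-t) * Real.exp (1 / 2) := by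
      rw [← Real.exp_add]; congr 1; ring
    have g2 : Real.exp (-(t - 1 / 2)) ≤ Real.exp (-(1 / 2)) := Real.exp_le_exp.2 (by linarith)
    have g3 : Real.exp (1 / 2) * Real.exp (-(1 / 2)) = 1 := by rw [← Real.exp_add]; simp
    have g4 : Real.exp (1 / 2) ^ 2 < 2.7182818286 := by
      rw [← Real.exp_nat_mul, show ((2 : ℕ) : ℝ) * (1 / 2) = 1 by norm_num]
      exact Real.exp_one_lt_d9
    have g5 : 2.7182818283 < Real.exp (1 / 2) ^ 2 := by
      rw [← Real.exp_nat_mul, show ((2 : ℕ) : ℝ) * (1 / 2) = 1 by norm_num]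
      exact Real.exp_one_gt_d9
    have g6 := Real.exp_pos (1 / 2 : ℝ)
    have g7 : Real.exp (1 / 2) < 1.65 := by nlinarith
    have g8 : 1.64 < Real.exp (1 / 2) := by nlinarith
    have g9 : Real.exp (-(1 / 2)) < 0.62 := by
      have := Real.exp_pos (-(1 / 2) : ℝ)
      nlinarith
    have g10 : 0.38 ≤ 1 - Real.exp (-(t - 1 / 2)) := by linarith
    have g11 := Real.exp_pos (-t)
    rw [← div_eq_mul_inv, div_le_iff₀ (by linarith), g1]
    have g12 : 5 * Real.exp (-t) * 0.38 ≤ 5 * Real.exp (-t) * (1 - Real.exp (-(t - 1 / 2))) :=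
      mul_le_mul_of_nonneg_left g10 (by positivity)
    rw [g1] at g12
    nlinarith
  have h3 : cS n * (δ * Real.exp (-(t - 1 / 2)) * (1 - Real.exp (-(t - 1 / 2)))⁻¹) ≤
      5 * δ * (cS n * Real.exp (-t)) := by
    have hc : 0 ≤ cS n := by unfold cS; positivity
    have := mul_le_mul_of_nonneg_left h2 (mul_nonneg hc hδ)
    linarith
  have h4 := mul_le_mul_of_nonneg_left (fS_ge n ht0) (by linarith : 0 ≤ 5 * δ)
  linarith

/-- The magnetization is nondecreasing in the field. -/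
theorem magAt_mono (n : ℕ) {β : ℝ} (hβ : 0 < β) : Monotone (H.magAt n β) := by
  intro x y hxy
  have h := (pressure_convex n hβ).monotoneOn_rightDeriv
  have := h (by simp : x ∈ interior (Set.univ : Set ℝ)) (by simp : y ∈ interior (Set.univ : Set ℝ)) hxy
  exact this

/-- Growth of the reduced pressure at small fields. -/
theorem gRed_small (n : ℕ) {β : ℝ} (hβ : 0 < β) {t t₁ : ℝ} (ht : 0 ≤ t) (h : t ≤ t₁) :
    gRed n β (t / β) ≤ gRed n β (t₁ / β) + (t₁ - t) * ((n : ℝ) / 2 - H.magAt n β 0) := by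
  rcases h.eq_or_lt with rfl | h
  · simp
  have h1 := rightDeriv_le_slope' n hβ (h₀ := t / β) (h := t₁ / β)
    (div_lt_div_of_pos_right h hβ)
  have h2 := magAt_mono n hβ (show (0 : ℝ) ≤ t / β by positivity)
  have h3 : 0 < t₁ / β - t / β := by
    have := div_lt_div_of_pos_right h hβ
    linarith
  have h4 : H.magAt n β (t / β) ≤ (pressure n β (t₁ / β) - pressure n β (t / β)) /
      (t₁ / β - t / β) := h1
  rw [le_div_iff₀ h3] at h4
  have h5 : (t₁ / β - t / β) * β = t₁ - t := by field_simp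
  unfold gRed
  have h6 := mul_le_mul_of_nonneg_right h2 (by linarith : 0 ≤ t₁ - t)
  have h7 : β * (H.magAt n β (t / β) * (t₁ / β - t / β)) = H.magAt n β (t / β) * (t₁ - t) := by
    rw [← h5]; ring
  have h8 := mul_le_mul_of_nonneg_left h4 hβ.le
  rw [h7] at h8
  have h9 : β * ((n : ℝ) / 2 * (t₁ / β)) - β * ((n : ℝ) / 2 * (t / β)) = (n : ℝ) / 2 * (t₁ - t) := by
    rw [← h5]; ring
  linarith

end Vale.Agent.P361.H285
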